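import Mathlib

/-!
The scaling limit of the height function of the self-dual Ashkin-Teller model: the definitions,
written out over Mathlib as in the statement of the problem. The plane is `ℂ`.
-/

set_option autoImplicit false

namespace Vale.Agent.P145W

open MeasureTheory ProbabilityTheory Filter Topology Set TopologicalSpace

/-! ### Jordan domains and lattice polygons -/

/-- `β` is a parametrization by `[0,1]` of the simple closed curve `C`. -/
def Param (β : ℝ → ℂ) (C : Set ℂ) : Prop :=
  ContinuousOn β (Icc 0 1) ∧ InjOn β (Ico 0 1) ∧ β 1 = β 0 ∧ β '' Icc 0 1 = C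

/-- A bounded Jordan domain: a bounded connected open set whose boundary is a simple closed
curve. -/
def IsJordan (D : Set ℂ) : Prop :=
  IsOpen D ∧ IsConnected D ∧ Bornology.IsBounded D ∧ ∃ β, Param β (frontier D)

/-- The lattice point as a point of the plane. -/
def pt (v : ℤ × ℤ) : ℂ := ⟨v.1, v.2⟩

/-- A simple closed lattice polygon in `δℤ²`, with the vertices `δ p 0, …, δ p (N - 1)`. -/
structure Polygon where
  /-- the mesh -/
  δ : ℝ
  /-- the number of vertices -/
  N : ℕ
  /-- the vertices -/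
  p : ZMod N → ℤ × ℤ
  pos : 0 < δ
  two_lt : 2 < N
  inj : Function.Injective p
  nn : ∀ i, dist (pt (p i)) (pt (p (i + 1))) = 1

namespace Polygon

variable (P : Polygon)

/-- The polygon as a subset of the plane. -/
def curve : Set ℂ := ⋃ i, segment ℝ (P.δ * pt (P.p i)) (P.δ * pt (P.p (i + 1)))

/-- The points inside the polygon: their component in the complement of the polygon is bounded. -/
def inside : Set ℂ := {z | z ∉ P.curve ∧ Bornology.IsBounded (connectedComponentIn P.curveᶜ z)}

/-- The vertices of the graph: the lattice vertices on or inside the polygon. -/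
def V : Set (ℤ × ℤ) := {v | P.δ * pt v ∈ P.curve ∪ P.inside}

/-- The edges of the graph: the lattice edges on or inside the polygon. -/
def Edge (u v : P.V) : Prop :=
  dist (pt u) (pt v) = 1 ∧ segment ℝ (P.δ * pt u) (P.δ * pt v) ⊆ P.curve ∪ P.inside

/-- The bounded faces of the graph: the open squares of the lattice inside the polygon, given by
their bottom-left corners. -/
def F : Set (ℤ × ℤ) := {f | ∀ x ∈ Ioo (0 : ℝ) 1, ∀ y ∈ Ioo (0 : ℝ) 1,
  P.δ * (pt f + (x + y * Complex.I)) ∈ P.inside}

/-- The vertex `v` is a corner of the face `f`. -/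
def Corner (v : P.V) (f : P.F) : Prop :=
  (v.1.1 = f.1.1 ∨ v.1.1 = f.1.1 + 1) ∧ (v.1.2 = f.1.2 ∨ v.1.2 = f.1.2 + 1)

/-- `uv` is an interior edge, which separates the faces `f` and `f'`. -/
def Sep (u v : P.V) (f f' : P.F) : Prop :=
  P.Edge u v ∧ f ≠ f' ∧ P.Corner u f ∧ P.Corner v f ∧ P.Corner u f' ∧ P.Corner v f'

/-! ### The height representation -/

/-- The pairs `(τ, τ†)` of spins `±1` on the vertices and on the bounded faces. -/
abbrev Conf : Type := (P.V → ({1, -1} : Set ℝ)) × (P.F → ({1, -1} : Set ℝ))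

/-- The admissible pairs: `τ = 1` on the polygon, and `(τ(u) - τ(v)) (τ†(f) - τ†(f')) = 0` for every
interior edge `uv` separating the faces `f`, `f'`. -/
def adm : Set P.Conf :=
  {σ | (∀ v : P.V, P.δ * pt v ∈ P.curve → (σ.1 v : ℝ) = 1) ∧
    ∀ u v f f', P.Sep u v f f' → ((σ.1 u : ℝ) - σ.1 v) * ((σ.2 f : ℝ) - σ.2 f') = 0}

/-- `N(τ) + N(τ†)`: the number of pairs of adjacent vertices with different spins, plus the number
of pairs of adjacent bounded faces with different spins. -/
noncomputable def dis (σ : P.Conf) : ℕ :=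
  {e : Sym2 P.V | ∃ u v, e = s(u, v) ∧ P.Edge u v ∧ σ.1 u ≠ σ.1 v}.ncard +
    {e : Sym2 P.F | ∃ f f', e = s(f, f') ∧ (∃ u v, P.Sep u v f f') ∧ σ.2 f ≠ σ.2 f'}.ncard

/-- The height representation: the admissible pairs, with probabilities proportional to
`t ^ (N(τ) + N(τ†))`. -/
noncomputable def law (t : ℝ) : Measure P.Conf :=
  (Measure.count.withDensity fun σ => ENNReal.ofReal (t ^ P.dis σ))[|P.adm]

/-- `H = (H.1, H.2)` (on the vertices, on the faces) is the height of `(τ, τ†)`: it is `0` on the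
polygon, and `H(f) - H(v) = τ(v) τ†(f) / 2` whenever the vertex `v` is a corner of the face `f`. -/
def IsHeight (σ : P.Conf) (H : (P.V → ℝ) × (P.F → ℝ)) : Prop :=
  (∀ v : P.V, P.δ * pt v ∈ P.curve → H.1 v = 0) ∧
    ∀ v f, P.Corner v f → H.2 f - H.1 v = 1 / 2 * σ.1 v * σ.2 f

/-- `H_δ(φ) = δ² ∑_v H(v) φ(v)`. -/
noncomputable def fld (H : (P.V → ℝ) × (P.F → ℝ)) (φ : ℂ → ℝ) : ℝ :=
  P.δ ^ 2 * ∑ᶠ v : P.V, H.1 v * φ (P.δ * pt v)

end Polygon

/-- The polygons `P i` approximate `D` along the filter `l`: the meshes tend to `0`, the polygons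
converge uniformly, as parametrized curves, to the boundary of `D`, and they eventually enclose
every compact subset of `D`. -/
def Approx {ι : Type} (l : Filter ι) (D : Set ℂ) (P : ι → Polygon) : Prop :=
  Tendsto (fun i => (P i).δ) l (𝓝 0) ∧
  (∃ (β : ℝ → ℂ) (γ : ι → ℝ → ℂ), Param β (frontier D) ∧ (∀ i, Param (γ i) (P i).curve) ∧
    TendstoUniformlyOn γ β l (Icc 0 1)) ∧
  ∀ K ⊆ D, IsCompact K → ∀ᶠ i in l, K ⊆ (P i).inside

/-! ### The Gaussian free field -/

/-- `G` is the Green function of `-Δ` in `D` with zero boundary values, the kernel of `(-Δ_D)⁻¹`: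
for every pole `w` in `D`, `G(z, w) = (2π)⁻¹ log (1 / |z - w|) + u(z)` with `u` harmonic in `D`,
and `G(z, w) → 0` as `z` tends to a boundary point. -/
def IsGreen (D : Set ℂ) (G : ℂ → ℂ → ℝ) : Prop :=
  ∀ w ∈ D, (∃ u : ℂ → ℝ, InnerProductSpace.HarmonicOnNhd u D ∧
      ∀ z ∈ D, z ≠ w → G z w = (2 * Real.pi)⁻¹ * Real.log (1 / ‖z - w‖) + u z) ∧
    ∀ x ∈ frontier D, Tendsto (fun z => G z w) (𝓝[D] x) (𝓝 0)

/-- `h` is the law of a centred Gaussian random distribution on `D` with the covariance kernel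
`2π G`: `E[(h, f) (h, g)] = 2π ∬ f(z) G(z, w) g(w) dz dw`. -/
def IsGFF {D : Opens ℂ} [MeasurableSpace (Distribution D ℝ ⊤)] (G : ℂ → ℂ → ℝ)
    (h : Measure (Distribution D ℝ ⊤)) : Prop :=
  IsProbabilityMeasure h ∧
    (∀ f : TestFunction D ℝ ⊤, ∃ v, h.map (fun T => T f) = gaussianReal 0 v) ∧
    ∀ f g : TestFunction D ℝ ⊤, ∫ T, T f * T g ∂h =
      2 * Real.pi * ∫ z in (D : Set ℂ), ∫ w in (D : Set ℂ), f z * G z w * g w

/-! ### The statement -/

/-- The model is well defined: for every polygon the graph is finite and has a bounded face, the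
height representation is a probability measure which charges every admissible pair, and every
admissible pair has exactly one height, which has integer values on the vertices. -/
def Model : Prop :=
  ∀ P : Polygon, P.V.Finite ∧ P.F.Finite ∧ P.F.Nonempty ∧
    (∀ t > 0, IsProbabilityMeasure (P.law t) ∧ ∀ σ, σ ∈ P.adm ↔ 0 < P.law t {σ}) ∧
    ∀ σ ∈ P.adm, (∃! H, P.IsHeight σ H) ∧ ∀ H, P.IsHeight σ H → ∀ v, ∃ k : ℤ, H.1 v = k

/-- Every bounded Jordan domain has approximations, with any given meshes tending to `0`. -/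
def HasApprox : Prop :=
  ∀ D : Set ℂ, IsJordan D → ∀ δ : ℕ → ℝ, (∀ n, 0 < δ n) → Tendsto δ atTop (𝓝 0) →
    ∃ P : ℕ → Polygon, (∀ n, (P n).δ = δ n) ∧ Approx atTop D P

/-- Along all approximations of `D`, the height function with the parameter `t` converges in law to
`s h`: tested against finitely many test functions, and as a random distribution. -/
def Limit (t s : ℝ) {D : Opens ℂ} [MeasurableSpace (Distribution D ℝ ⊤)]
    [BorelSpace (Distribution D ℝ ⊤)] (h : Measure (Distribution D ℝ ⊤))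
    [IsProbabilityMeasure h] : Prop :=
  ∀ (ι : Type) (l : Filter ι) [l.IsCountablyGenerated] (P : ι → Polygon), Approx l D P →
    ∀ [∀ i, IsProbabilityMeasure ((P i).law t)]
      (H : ∀ i, (P i).Conf → ((P i).V → ℝ) × ((P i).F → ℝ)),
      (∀ i, ∀ σ ∈ (P i).adm, (P i).IsHeight σ (H i σ)) →
      (∀ (k : ℕ) (φ : Fin k → TestFunction D ℝ ⊤),
        TendstoInDistribution (fun i σ j => (P i).fld (H i σ) (φ j)) l
          (fun T j => s * T (φ j)) (fun i => (P i).law t) h) ∧
      ∃ X : ∀ i, (P i).Conf → Distribution D ℝ ⊤,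
        (∀ i σ φ, X i σ φ = (P i).fld (H i σ) φ) ∧
        TendstoInDistribution X l (fun T => s • T) (fun i => (P i).law t) h

/-- In every bounded Jordan domain `D`, with the Borel `σ`-algebra on the space `𝓓'(D)` of the
distributions: the Green function `G` exists; there is exactly one law `h` of a centred Gaussian
random distribution with the covariance `2π G`, and it is not degenerate; at every point `(J, U)` of
the self-dual line, `H_δ → h / (π √g)` in law. -/
def Scaling : Prop :=
  ∀ D : Opens ℂ, IsJordan D → ∀ [MeasurableSpace (Distribution D ℝ ⊤)]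
    [BorelSpace (Distribution D ℝ ⊤)], (∃ G, IsGreen D G) ∧ ∀ G, IsGreen D G →
    ∃ (h : Measure (Distribution D ℝ ⊤)) (_ : IsProbabilityMeasure h), IsGFF G h ∧
      (∀ h', IsGFF G h' → h' = h) ∧
      (∀ f : TestFunction D ℝ ⊤, f ≠ 0 → 0 < ∫ T, T f * T f ∂h) ∧
      ∀ J U : ℝ, 0 < J → U ≤ J → Real.sinh (2 * J) = Real.exp (-2 * U) →
        Limit (1 / √(1 + Real.exp (4 * U)))
          (1 / (Real.pi * √(8 / Real.pi * Real.arcsin (√(1 + Real.exp (4 * U)) / 2)))) h

end Vale.Agent.P145W
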