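import Vale.Agent.P145W.Ht
import Vale.Agent.P145.Bdl.FC

/-!
The scaling limit from the blocks.
-/

set_option autoImplicit false

namespace Vale.Agent.P145W

open MeasureTheory ProbabilityTheory Filter Topology Set TopologicalSpace Vale.Agent.P145

theorem exists_distr (D : Opens ℂ) (F : Finset (ℤ × ℤ)) (H : JG.Site → ℝ) (δ : ℝ) :
    ∃ T : Distribution D ℝ ⊤, ∀ φ : TestFunction D ℝ ⊤,
      T φ = JG.fldD F H δ (fun z => φ (eR.symm z)) := by
  refine ⟨δ ^ 2 • ∑ v ∈ JG.verts F, H (Sum.inl v) •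
    Distribution.delta (eR.symm (δ * v.1, δ * v.2)), fun φ => ?_⟩
  unfold JG.fldD
  induction JG.verts F using Finset.cons_induction with
  | empty => simp
  | cons a t ha ih =>
    rw [Finset.sum_cons, Finset.sum_cons, mul_add, ← ih, smul_add]
    rfl

theorem Approx.comp {ι : Type} {l : Filter ι} {D : Set ℂ} {P : ι → Polygon} (h : Approx l D P)
    {x : ℕ → ι} (hx : Tendsto x atTop l) : Approx atTop D fun n => P (x n) := by
  obtain ⟨h1, ⟨β, γ, h2, h3, h4⟩, h5⟩ := h
  exact ⟨h1.comp hx, ⟨β, fun n => γ (x n), h2, fun n => h3 (x n), fun u hu => hx.eventually (h4 u hu)⟩,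
    fun K a b => hx.eventually (h5 K a b)⟩

theorem limit_of (hP : POL) (hA : APX) {t s : ℝ} (ht : 0 < t) {D : Opens ℂ} (hD : IsJordan D)
    [MeasurableSpace (Distribution D ℝ ⊤)] [BorelSpace (Distribution D ℝ ⊤)]
    (h : Measure (Distribution D ℝ ⊤)) [IsProbabilityMeasure h]
    (H0 : ∀ (δ : ℕ → ℝ) (N : ℕ → ℕ) (p : ∀ n, ZMod (N n) → ℤ × ℤ) (F : ℕ → Finset (ℤ × ℤ)),
      JG.Approx (eR '' D) δ N p F →
      ∀ [∀ n, IsProbabilityMeasure (JG.law t (p n) (F n))] (H : ℕ → JG.Conf → JG.Site → ℝ),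
        (∀ n, ∀ᵐ σ ∂JG.law t (p n) (F n), JG.IsHt (p n) (F n) σ (H n σ)) →
        ∀ X : ℕ → JG.Conf → Distribution D ℝ ⊤,
          (∀ n σ φ, X n σ φ = JG.fldD (F n) (H n σ) (δ n) (fun z => φ (eR.symm z))) →
          TendstoInDistribution X atTop (fun T => s • T) (fun n => JG.law t (p n) (F n)) h) :
    Limit t s h := by
  intro ι l _ P hl _ H hH
  choose S hS using fun i => hP (P i)
  have hne : ∀ i, Nonempty (P i).Conf := fun i => ⟨ofS _ ∅⟩
  let H' : ι → JG.Conf → JG.Site → ℝ := fun i σ =>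
    extH (P i) (H i (Function.invFun (toJ (P i)) σ))
  have e1 : ∀ i σ, H' i (toJ (P i) σ) = extH (P i) (H i σ) := fun i σ => by
    simp only [H', Function.leftInverse_invFun toJ_inj σ]
  choose X' hX' using fun i σ => exists_distr D (S i) (H' i σ) (P i).δ
  have hX : ∀ i σ φ, X' i (toJ (P i) σ) φ = (P i).fld (H i σ) φ := fun i σ φ => by
    rw [hX', e1, (hS i).fld_eq]
  have hc : Continuous fun T : Distribution D ℝ ⊤ => s • T := by fun_prop
  have key : TendstoInDistribution (fun i σ => X' i (toJ (P i) σ)) l (fun T => s • T)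
      (fun i => (P i).law t) h := by
    refine ⟨fun i => ((hS i).meas _).aemeasurable, hc.measurable.aemeasurable, ?_⟩
    refine tendsto_iff_seq_tendsto.2 fun x hx => ?_
    have : ∀ n, IsProbabilityMeasure (JG.law t (P (x n)).p (S (x n))) := fun n =>
      Dom.law_prob ht.le _ _
    have h1 := H0 _ _ _ _ (hA D _ (fun n => S (x n)) hD (hl.comp hx) fun n => hS (x n))
      (fun n => H' (x n)) (fun n => Dom.law_ae fun A a b => by
        have c := (hS (x n)).toJ_ofS a
        have d : ofS (P (x n)) A ∈ (P (x n)).adm :=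
          (hS (x n)).adm_of (t := t) ((hS (x n)).bd_ofS a) (by rwa [c])
        have e := (hS (x n)).isHt (hH _ _ d)
        rwa [← e1, c] at e) (fun n => X' (x n)) fun n => hX' (x n)
    refine h1.tendsto.congr fun n => Subtype.ext ?_
    have h2 := h1.forall_aemeasurable n
    show (JG.law t (P (x n)).p (S (x n))).map (X' (x n)) =
      ((P (x n)).law t).map (X' (x n) ∘ toJ (P (x n)))
    simp only [← (hS (x n)).map_law ht] at h2 ⊢
    exact h2.map_map_of_aemeasurable ((hS _).meas _).aemeasurable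
  refine ⟨fun k φ => ?_, _, hX, key⟩
  have h3 := key.continuous_comp (g := fun T j => T (φ j))
    (continuous_pi fun j => continuous_eval_const (φ j))
  refine h3.congr (fun i => ae_of_all _ fun σ => funext fun j => hX i σ (φ j))
    (ae_of_all _ fun T => rfl)

theorem s_pos (U : ℝ) :
    0 < 1 / (Real.pi * √(8 / Real.pi * Real.arcsin (√(1 + Real.exp (4 * U)) / 2))) := by
  have h1 : 0 < Real.arcsin (√(1 + Real.exp (4 * U)) / 2) := Real.arcsin_pos.2 (by positivity)
  have h2 := Real.pi_pos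
  positivity

theorem scaling_of (hJ : JOR) (hP : POL) (hA : APX) (hE : HasApprox) (hF : FLD) : Scaling := by
  intro D hD _ _
  obtain ⟨⟨Φ, hΦ⟩, hj⟩ := hJ D hD
  have hx : ∃ δ N p F, JG.Approx (eR '' D) δ N p F := by
    obtain ⟨P, -, h1⟩ := hE D hD (fun n => 1 / ((n : ℝ) + 1)) (fun n => by positivity)
      tendsto_one_div_add_atTop_nhds_zero_nat
    choose S hS using fun n => hP (P n)
    exact ⟨_, _, _, S, hA D P S hD h1 hS⟩
  have h0 : Real.sinh (2 * (Real.arsinh 1 / 2)) = Real.exp (-2 * 0) := by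
    rw [mul_div_cancel₀ _ two_ne_zero, Real.sinh_arsinh, mul_zero, Real.exp_zero]
  have h1 : (0 : ℝ) ≤ Real.arsinh 1 / 2 := div_nonneg (Real.arsinh_nonneg_iff.2 zero_le_one) zero_le_two
  obtain ⟨h2, h3⟩ := hF D Φ hΦ _ _ (s_pos 0) (JG.jordan_full h1 h0 _ hj) hx
  refine ⟨h2, fun G hG => ?_⟩
  obtain ⟨h, i, a, b, c, -⟩ := h3 G hG
  refine ⟨h, i, a, b, c, fun J U _ hU hs => ?_⟩
  obtain ⟨h', i', a', -, -, d⟩ := (hF D Φ hΦ _ _ (s_pos U) (JG.jordan_full hU hs _ hj) hx).2 G hG
  obtain rfl := b h' a'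
  exact limit_of hP hA (by positivity) hD _ d

end Vale.Agent.P145W
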