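import Vale.Agent.P145W.Law
import Vale.Agent.P145.Bdl.B3

/-!
The heights.
-/

set_option autoImplicit false

namespace Vale.Agent.P145W

open MeasureTheory ProbabilityTheory Set Vale.Agent.P145

variable {P : Polygon} {S : Finset (ℤ × ℤ)}

open Classical in
/-- The height, extended by zero. -/
noncomputable def extH (P : Polygon) (H : (P.V → ℝ) × (P.F → ℝ)) : JG.Site → ℝ :=
  Sum.elim (fun v => if h : v ∈ P.V then H.1 ⟨v, h⟩ else 0)
    fun f => if h : f ∈ P.F then H.2 ⟨f, h⟩ else 0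

theorem extH_inl (H : (P.V → ℝ) × (P.F → ℝ)) (v : P.V) : extH P H (Sum.inl v.1) = H.1 v := by
  simp only [extH, Sum.elim_inl, dif_pos v.2]

theorem extH_inr (H : (P.V → ℝ) × (P.F → ℝ)) (f : P.F) : extH P H (Sum.inr f.1) = H.2 f := by
  simp only [extH, Sum.elim_inr, dif_pos f.2]

theorem Graph.p_mem (h : Graph P S) (i : ZMod P.N) : P.p i ∈ P.V := Or.inl ((h.onP _).2 ⟨i, rfl⟩)

theorem Graph.isHt (h : Graph P S) {σ : P.Conf} {H : (P.V → ℝ) × (P.F → ℝ)}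
    (hH : P.IsHeight σ H) : JG.IsHt P.p S (toJ P σ) (extH P H) := by
  refine ⟨fun i => ?_, fun f hf a b ha hb => ?_⟩
  · exact (extH_inl H ⟨_, h.p_mem i⟩).trans (hH.1 _ ((h.onP _).2 ⟨i, rfl⟩))
  · have h1 : ((f.1 + a, f.2 + b).1 = f.1 ∨ (f.1 + a, f.2 + b).1 = f.1 + 1) ∧
        ((f.1 + a, f.2 + b).2 = f.2 ∨ (f.1 + a, f.2 + b).2 = f.2 + 1) := by
      simp only; omega
    have h2 := hH.2 ⟨_, h.mem_V.2 ⟨f, hf, h1⟩⟩ ⟨f, h.mem_F.2 hf⟩ h1
    rwa [← extH_inl, ← extH_inr, ← sp_bl, ← sp_bl (σ.2 _), ← toJ_inl, ← toJ_inr] at h2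

theorem Graph.isHeight (h : Graph P S) {σ : P.Conf} {H : JG.Site → ℝ}
    (hH : JG.IsHt P.p S (toJ P σ) H) :
    P.IsHeight σ (fun v => H (Sum.inl v.1), fun f => H (Sum.inr f.1)) := by
  refine ⟨fun v hv => ?_, fun v f hc => ?_⟩
  · obtain ⟨i, hi⟩ := (h.onP _).1 hv
    simpa only [hi] using hH.1 i
  · obtain ⟨h1, h2⟩ := hc
    have h3 := hH.2 f.1 (h.mem_F.1 f.2) (v.1.1 - f.1.1) (v.1.2 - f.1.2) (by omega) (by omega)
    simp only [add_sub_cancel, Prod.mk.eta] at h3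
    rwa [toJ_inl, toJ_inr, sp_bl, sp_bl] at h3

theorem Graph.exists_height (h : Graph P S) {σ : P.Conf} (hσ : σ ∈ P.adm) :
    ∃! H, P.IsHeight σ H := by
  have h0 : JG.wt 1 S (JG.conf (toS P S σ)) ≠ 0 := by
    rw [h.conf_toS hσ.1, h.wt_adm 1 hσ, one_pow]
    exact one_ne_zero
  obtain ⟨H, h1, h2⟩ := Dom.exists_isHt (t := 1) h.poly h.encl (S := toS P S σ)
    (Finset.filter_subset _ _) h0
  have h3 : JG.IsHt P.p S (JG.conf (toS P S σ)) H := ⟨h2, fun f _ a b ha hb => h1 f a b ha hb⟩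
  rw [h.conf_toS hσ.1] at h3
  refine existsUnique_of_exists_of_unique ⟨_, h.isHeight h3⟩ fun H H' a b => ?_
  refine Prod.ext (funext fun v => ?_) (funext fun f => ?_)
  · rw [← extH_inl, ← extH_inl]
    refine Dom.IsHt.unique h.encl (h.isHt a) (h.isHt b) ?_
    exact Finset.mem_coe.1 (h.verts.symm.subset v.2)
  · rw [← extH_inr, ← extH_inr]
    exact Dom.IsHt.unique_face h.encl (h.isHt a) (h.isHt b) (h.mem_F.1 f.2)

theorem half_int (a b c : ({1, -1} : Set ℝ)) :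
    ∃ k : ℤ, 1 / 2 * (a : ℝ) * c - 1 / 2 * (b : ℝ) * c = k := by
  have e : ∀ x : ({1, -1} : Set ℝ), (x : ℝ) = 1 ∨ (x : ℝ) = -1 := fun x => x.2
  rcases e a with ha | ha <;> rcases e b with hb | hb <;> rcases e c with hc | hc <;>
    rw [ha, hb, hc]
  · exact ⟨0, by norm_num⟩
  · exact ⟨0, by norm_num⟩
  · exact ⟨1, by norm_num⟩
  · exact ⟨-1, by norm_num⟩
  · exact ⟨-1, by norm_num⟩
  · exact ⟨1, by norm_num⟩
  · exact ⟨0, by norm_num⟩
  · exact ⟨0, by norm_num⟩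

theorem Graph.int_height (h : Graph P S) {σ : P.Conf} {H : (P.V → ℝ) × (P.F → ℝ)}
    (hH : P.IsHeight σ H) (v : P.V) : ∃ k : ℤ, H.1 v = k := by
  have key : ∀ k : ℕ, ∀ v : P.V, (v.1.1 - k, v.1.2) ∉ P.V → ∃ m : ℤ, H.1 v = m := by
    intro k
    induction k with
    | zero => intro v h1; exact absurd (by simp) h1
    | succ k ih =>
      intro v h1
      by_cases h2 : P.δ * pt v ∈ P.curve
      · exact ⟨0, by rw [hH.1 v h2, Int.cast_zero]⟩
      obtain ⟨g, hg, h3⟩ := h.mem_V.1 v.2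
      have h4 : (v.1.1 - 1, v.1.2) ∈ S := by
        by_contra h5
        exact h2 ((h.onP _).2 (Dom.corner_poly h.encl hg h5 h3 ⟨Or.inr (by simp), Or.inl rfl⟩))
      have h5 : (v.1.1 - 1, v.1.2) ∈ P.V := h.mem_V.2 ⟨_, h4, Or.inl rfl, Or.inl rfl⟩
      obtain ⟨m, hm⟩ := ih ⟨_, h5⟩ (by
        have : (v.1.1 - 1 - (k : ℤ), v.1.2) = (v.1.1 - ((k + 1 : ℕ) : ℤ), v.1.2) := by
          push_cast; congr 1; ring
        simpa only [this] using h1)
      have h6 := hH.2 v ⟨_, h.mem_F.2 h4⟩ ⟨Or.inr (by simp), Or.inl rfl⟩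
      have h7 := hH.2 ⟨_, h5⟩ ⟨_, h.mem_F.2 h4⟩ ⟨Or.inl rfl, Or.inl rfl⟩
      obtain ⟨j, hj⟩ := half_int (σ.1 ⟨_, h5⟩) (σ.1 v) (σ.2 ⟨_, h.mem_F.2 h4⟩)
      exact ⟨m + j, by push_cast; linarith⟩
  obtain ⟨k, hk⟩ : ∃ k : ℕ, (v.1.1 - (k : ℤ), v.1.2) ∉ P.V := by
    by_contra hcon
    push Not at hcon
    have h1 : Function.Injective (fun k : ℕ => (v.1.1 - (k : ℤ), v.1.2)) := by
      intro a b hab
      simp only [Prod.mk.injEq, and_true] at hab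
      omega
    exact infinite_range_of_injective h1 (h.finV.subset (by rintro _ ⟨k, rfl⟩; exact hcon k))
  exact key k v hk

theorem model_of (hP : POL) : Model := by
  intro P
  obtain ⟨S, h⟩ := hP P
  refine ⟨h.finV, h.finF, ?_, fun t ht => ⟨h.prob ht, h.adm_iff ht⟩,
    fun σ hσ => ⟨h.exists_height hσ, fun H hH => h.int_height hH⟩⟩
  rw [← h.faces]
  exact h.ne

theorem Graph.fld_eq (h : Graph P S) (H : (P.V → ℝ) × (P.F → ℝ)) (φ : ℂ → ℝ) :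
    JG.fldD S (extH P H) P.δ (fun z => φ (eR.symm z)) = P.fld H φ := by
  unfold JG.fldD Polygon.fld
  congr 1
  have e : ∀ v : ℤ × ℤ, eR.symm (P.δ * v.1, P.δ * v.2) = P.δ * pt v := fun v => by
    apply Complex.ext <;> simp [pt]
  simp only [e]
  rw [← finsum_mem_coe_finset, h.verts,
    ← finsum_set_coe_eq_finsum_mem (f := fun v => extH P H (Sum.inl v) * φ (P.δ * pt v))]
  simp only [extH_inl]

end Vale.Agent.P145W
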