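import Vale.Agent.P145W.Wt

/-!
The law of the spins.
-/

set_option autoImplicit false

namespace Vale.Agent.P145W

open MeasureTheory ProbabilityTheory Set Vale.Agent.P145

variable {P : Polygon} {S : Finset (ℤ × ℤ)}

theorem conf_true {A : Finset JG.Site} {x : JG.Site} : JG.conf A x = true ↔ x ∉ A := by
  simp [JG.conf]

theorem Graph.free_inl (h : Graph P S) {v : ℤ × ℤ} :
    Sum.inl v ∈ JG.free P.p S ↔ v ∈ P.V ∧ P.δ * pt v ∉ P.curve := by
  classical
  rw [h.onP, ← h.verts, JG.free, Finset.inl_mem_disjSum, Finset.mem_filter, not_exists,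
    Finset.mem_coe]

theorem Graph.free_inr (h : Graph P S) {f : ℤ × ℤ} : Sum.inr f ∈ JG.free P.p S ↔ f ∈ P.F := by
  rw [h.mem_F, JG.free, Finset.inr_mem_disjSum]

/-- The sites with the spin `-1`. -/
noncomputable def toS (P : Polygon) (S : Finset (ℤ × ℤ)) (σ : P.Conf) : Finset JG.Site :=
  (JG.free P.p S).filter fun x => toJ P σ x = false

open Classical in
/-- The pair with the spin `-1` at the given sites. -/
noncomputable def ofS (P : Polygon) (A : Finset JG.Site) : P.Conf :=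
  (fun v => if Sum.inl v.1 ∈ A then ⟨-1, Or.inr rfl⟩ else ⟨1, Or.inl rfl⟩,
    fun f => if Sum.inr f.1 ∈ A then ⟨-1, Or.inr rfl⟩ else ⟨1, Or.inl rfl⟩)

theorem Graph.conf_toS (h : Graph P S) {σ : P.Conf}
    (hσ : ∀ v : P.V, P.δ * pt v ∈ P.curve → (σ.1 v : ℝ) = 1) :
    JG.conf (toS P S σ) = toJ P σ := by
  funext x
  rw [Bool.eq_iff_iff, conf_true, toS, Finset.mem_filter, not_and, Bool.not_eq_false]
  refine ⟨fun H => ?_, fun H _ => H⟩
  by_contra h1
  refine h1 (H ?_)
  rcases x with v | f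
  · have hv : v ∈ P.V := by
      by_contra hv
      exact h1 (by simp only [toJ, Sum.elim_inl, dif_neg hv])
    refine h.free_inl.2 ⟨hv, fun h2 => h1 ?_⟩
    exact (toJ_inl σ ⟨v, hv⟩).trans (bl_true.2 (hσ ⟨v, hv⟩ h2))
  · refine h.free_inr.2 ?_
    by_contra hf
    exact h1 (by simp only [toJ, Sum.elim_inr, dif_neg hf])

theorem bl_ite (p : Prop) [Decidable p] :
    bl (if p then ⟨-1, Or.inr rfl⟩ else ⟨1, Or.inl rfl⟩) = true ↔ ¬ p := by
  rw [bl_true]
  split_ifs with hp
  · simp only [hp, not_true, iff_false]; norm_num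
  · simp only [hp, not_false_iff]

theorem Graph.toJ_ofS (h : Graph P S) {A : Finset JG.Site} (hA : A ⊆ JG.free P.p S) :
    toJ P (ofS P A) = JG.conf A := by
  funext x
  rw [Bool.eq_iff_iff, conf_true]
  rcases x with v | f
  · by_cases hv : v ∈ P.V
    · rw [toJ_inl _ ⟨v, hv⟩, ofS, bl_ite]
    · simp only [toJ, Sum.elim_inl, dif_neg hv, true_iff]
      exact fun x => hv (h.free_inl.1 (hA x)).1
  · by_cases hf : f ∈ P.F
    · rw [toJ_inr _ ⟨f, hf⟩, ofS, bl_ite]
    · simp only [toJ, Sum.elim_inr, dif_neg hf, true_iff]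
      exact fun x => hf (h.free_inr.1 (hA x))

theorem Graph.bd_ofS (h : Graph P S) {A : Finset JG.Site} (hA : A ⊆ JG.free P.p S) (v : P.V)
    (hv : P.δ * pt v ∈ P.curve) : ((ofS P A).1 v : ℝ) = 1 := by
  rw [← bl_true, ofS, bl_ite]
  exact fun x => (h.free_inl.1 (hA x)).2 hv

theorem toJ_inj : Function.Injective (toJ P) := by
  intro σ σ' h
  refine Prod.ext (funext fun v => ?_) (funext fun f => ?_)
  · rw [← bl_inj, ← toJ_inl, ← toJ_inl, h]
  · rw [← bl_inj, ← toJ_inr, ← toJ_inr, h]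

theorem conf_inj : Function.Injective JG.conf := by
  intro A B h
  ext x
  rw [← not_iff_not, ← conf_true, ← conf_true, h]

theorem Graph.finV (h : Graph P S) : P.V.Finite := h.verts ▸ Finset.finite_toSet _

theorem Graph.finF (h : Graph P S) : P.F.Finite := h.faces ▸ Finset.finite_toSet _

theorem Graph.fin (h : Graph P S) : Finite P.Conf := by
  have := h.finV.to_subtype
  have := h.finF.to_subtype
  infer_instance

theorem Graph.msc (_ : Graph P S) : MeasurableSingletonClass P.Conf := inferInstance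

/-- The admissible pairs, as a finite set. -/
noncomputable def Graph.admF (h : Graph P S) : Finset P.Conf :=
  (@Set.toFinite _ P.adm (@Subtype.finite _ h.fin _)).toFinset

theorem Graph.mem_admF (h : Graph P S) {σ : P.Conf} : σ ∈ h.admF ↔ σ ∈ P.adm :=
  Finite.mem_toFinset _

theorem Graph.sum_eq (h : Graph P S) {t : ℝ} (ht : t ≠ 0) {M : Type} [AddCommMonoid M]
    (φ : ℝ → JG.Conf → M) (h0 : ∀ σ, φ 0 σ = 0) :
    ∑ A ∈ (JG.free P.p S).powerset, φ (JG.wt t S (JG.conf A)) (JG.conf A) =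
      ∑ σ ∈ h.admF, φ (t ^ P.dis σ) (toJ P σ) := by
  classical
  rw [← Finset.sum_filter_of_ne (p := fun A => JG.wt t S (JG.conf A) ≠ 0)
    fun A _ hA x => hA (by rw [x, h0])]
  symm
  refine Finset.sum_bij (fun σ _ => toS P S σ) ?_ ?_ ?_ ?_
  · intro σ hσ
    have h1 := h.mem_admF.1 hσ
    refine Finset.mem_filter.2 ⟨Finset.mem_powerset.2 (Finset.filter_subset _ _), ?_⟩
    rw [h.conf_toS h1.1, h.wt_adm t h1]
    exact pow_ne_zero _ ht
  · intro σ hσ σ' hσ' e
    apply toJ_inj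
    rw [← h.conf_toS (h.mem_admF.1 hσ).1, ← h.conf_toS (h.mem_admF.1 hσ').1, e]
  · intro A hA
    obtain ⟨h1, h2⟩ := Finset.mem_filter.1 hA
    rw [Finset.mem_powerset] at h1
    refine ⟨ofS P A, h.mem_admF.2 (h.adm_of (t := t) (h.bd_ofS h1) (by rwa [h.toJ_ofS h1])), ?_⟩
    apply conf_inj
    rw [h.conf_toS (h.bd_ofS h1), h.toJ_ofS h1]
  · intro σ hσ
    have h1 := h.mem_admF.1 hσ
    rw [h.conf_toS h1.1, h.wt_adm t h1]

theorem one_adm (P : Polygon) : ofS P ∅ ∈ P.adm := by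
  refine ⟨fun v _ => by simp [ofS], fun u v f f' _ => by simp [ofS]⟩

theorem Graph.Z_pos (h : Graph P S) {t : ℝ} (ht : 0 < t) : 0 < ∑ σ ∈ h.admF, t ^ P.dis σ :=
  Finset.sum_pos (fun _ _ => pow_pos ht _) ⟨_, h.mem_admF.2 (one_adm P)⟩

open Classical in
theorem Graph.law_single (h : Graph P S) {t : ℝ} (ht : 0 < t) (σ : P.Conf) : P.law t {σ} =
    if σ ∈ P.adm then ENNReal.ofReal (t ^ P.dis σ / ∑ σ ∈ h.admF, t ^ P.dis σ) else 0 := by
  have h1 : ∀ σ, (Measure.count.withDensity fun σ => ENNReal.ofReal (t ^ P.dis σ)) {σ} =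
      ENNReal.ofReal (t ^ P.dis σ) := fun σ => by
    rw [withDensity_apply _ (measurableSet_singleton σ), lintegral_singleton,
      Measure.count_singleton, mul_one]
  have h2 : P.adm = ↑h.admF := by
    ext x
    rw [Finset.mem_coe, h.mem_admF]
  have h3 : (Measure.count.withDensity fun σ => ENNReal.ofReal (t ^ P.dis σ)) P.adm =
      ENNReal.ofReal (∑ σ ∈ h.admF, t ^ P.dis σ) := by
    rw [h2, ← sum_measure_singleton, ENNReal.ofReal_sum_of_nonneg fun _ _ => (pow_pos ht _).le]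
    exact Finset.sum_congr rfl fun σ _ => h1 σ
  rw [Polygon.law, cond_apply' (measurableSet_singleton σ), h3]
  split_ifs with hσ
  · rw [inter_eq_self_of_subset_right (singleton_subset_iff.2 hσ), h1,
      ENNReal.ofReal_div_of_pos (h.Z_pos ht), ENNReal.div_eq_inv_mul]
  · rw [inter_singleton_eq_empty.2 hσ, measure_empty, mul_zero]

theorem Graph.law_eq (h : Graph P S) {t : ℝ} (ht : 0 < t) : P.law t = ∑ σ ∈ h.admF,
    ENNReal.ofReal (t ^ P.dis σ / ∑ σ ∈ h.admF, t ^ P.dis σ) • Measure.dirac σ := by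
  classical
  have := h.fin
  refine Measure.ext_of_singleton fun σ => ?_
  rw [h.law_single ht, Measure.coe_finsetSum, Finset.sum_apply]
  simp only [Measure.smul_apply, smul_eq_mul, Measure.dirac_apply, indicator, mem_singleton_iff,
    Pi.one_apply, mul_ite, mul_one, mul_zero, Finset.sum_ite_eq', h.mem_admF]

theorem Graph.meas (h : Graph P S) {E : Type*} [MeasurableSpace E] (X : P.Conf → E) :
    Measurable X := by
  have := h.fin
  exact Measurable.of_discrete

/-- The two laws. -/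
theorem Graph.map_law (h : Graph P S) {t : ℝ} (ht : 0 < t) :
    (P.law t).map (toJ P) = JG.law t P.p S := by
  have h1 := h.sum_eq ht.ne' (fun w _ => w) fun _ => rfl
  rw [h.law_eq ht, Measure.map_finset_sum (h.meas _).aemeasurable, JG.law, h1,
    h.sum_eq ht.ne' (fun w σ => ENNReal.ofReal (w / ∑ σ ∈ h.admF, t ^ P.dis σ) • Measure.dirac σ)
      fun _ => by simp]
  refine Finset.sum_congr rfl fun σ _ => ?_
  rw [Measure.map_smul, Measure.map_dirac' (h.meas _)]

theorem Graph.adm_iff (h : Graph P S) {t : ℝ} (ht : 0 < t) (σ : P.Conf) :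
    σ ∈ P.adm ↔ 0 < P.law t {σ} := by
  rw [h.law_single ht]
  split_ifs with hσ
  · simp only [hσ, ENNReal.ofReal_pos, true_iff]
    exact div_pos (pow_pos ht _) (h.Z_pos ht)
  · simp only [hσ, lt_self_iff_false]

theorem Graph.prob (h : Graph P S) {t : ℝ} (ht : 0 < t) : IsProbabilityMeasure (P.law t) := by
  refine ⟨?_⟩
  rw [h.law_eq ht, Measure.coe_finsetSum, Finset.sum_apply]
  simp only [Measure.smul_apply, measure_univ, smul_eq_mul, mul_one]
  rw [← ENNReal.ofReal_sum_of_nonneg fun _ _ => (div_pos (pow_pos ht _) (h.Z_pos ht)).le,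
    ← Finset.sum_div, div_self (h.Z_pos ht).ne', ENNReal.ofReal_one]

theorem Graph.ae_adm (h : Graph P S) (t : ℝ) : ∀ᵐ σ ∂P.law t, σ ∈ P.adm := by
  have := h.fin
  exact ae_cond_mem MeasurableSet.of_discrete

end Vale.Agent.P145W
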