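import Vale.Agent.P145W.Defs
import Vale.Agent.P145.JG.Defs

/-!
The blocks of the proof.
-/

set_option autoImplicit false

namespace Vale.Agent.P145W

open MeasureTheory ProbabilityTheory Filter Topology Set TopologicalSpace Vale.Agent.P145

/-- The identification of the two models of the plane. -/
noncomputable abbrev eR : ℂ ≃L[ℝ] ℝ × ℝ := Complex.equivRealProdCLM

/-- Schoenflies. -/
def JOR : Prop := ∀ D : Set ℂ, IsJordan D →
  (∃ Φ : ℂ ≃ₜ ℂ, D = Φ '' Metric.ball 0 1) ∧ JG.JordanDomain (eR '' D)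

/-- The graph of a polygon. -/
structure Graph (P : Polygon) (S : Finset (ℤ × ℤ)) : Prop where
  faces : (S : Set (ℤ × ℤ)) = P.F
  ne : S.Nonempty
  poly : JG.IsPolygon P.p
  encl : JG.Encloses P.p S
  verts : (JG.verts S : Set (ℤ × ℤ)) = P.V
  onP : ∀ v : ℤ × ℤ, P.δ * pt v ∈ P.curve ↔ ∃ i, P.p i = v
  edge : ∀ u v : P.V, P.Edge u v ↔
    dist (pt u) (pt v) = 1 ∧ ∃ f : P.F, P.Corner u f ∧ P.Corner v f

/-- Every polygon has such a graph. -/
def POL : Prop := ∀ P : Polygon, ∃ S, Graph P S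

/-- Approximations. -/
def APX : Prop := ∀ (D : Set ℂ) (P : ℕ → Polygon) (S : ℕ → Finset (ℤ × ℤ)), IsJordan D →
  Approx atTop D P → (∀ n, Graph (P n) (S n)) →
    JG.Approx (eR '' D) (fun n => (P n).δ) (fun n => (P n).N) (fun n => (P n).p) S

/-- The field and the convergence in the space of distributions. -/
def FLD : Prop := ∀ (D : Opens ℂ) (Φ : ℂ ≃ₜ ℂ), (D : Set ℂ) = Φ '' Metric.ball 0 1 →
  ∀ [MeasurableSpace (Distribution D ℝ ⊤)] [BorelSpace (Distribution D ℝ ⊤)] (t s : ℝ), 0 < s →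
  JG.Conv t s (eR '' D) → (∃ δ N p F, JG.Approx (eR '' D) δ N p F) →
  (∃ G, IsGreen D G) ∧ ∀ G, IsGreen D G →
    ∃ (h : Measure (Distribution D ℝ ⊤)) (_ : IsProbabilityMeasure h), IsGFF G h ∧
      (∀ h', IsGFF G h' → h' = h) ∧
      (∀ f : TestFunction D ℝ ⊤, f ≠ 0 → 0 < ∫ T, T f * T f ∂h) ∧
      ∀ (δ : ℕ → ℝ) (N : ℕ → ℕ) (p : ∀ n, ZMod (N n) → ℤ × ℤ) (F : ℕ → Finset (ℤ × ℤ)),
        JG.Approx (eR '' D) δ N p F →
        ∀ [∀ n, IsProbabilityMeasure (JG.law t (p n) (F n))] (H : ℕ → JG.Conf → JG.Site → ℝ),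
          (∀ n, ∀ᵐ σ ∂JG.law t (p n) (F n), JG.IsHt (p n) (F n) σ (H n σ)) →
          ∀ X : ℕ → JG.Conf → Distribution D ℝ ⊤,
            (∀ n σ φ, X n σ φ = JG.fldD (F n) (H n σ) (δ n) (fun z => φ (eR.symm z))) →
            TendstoInDistribution X atTop (fun T => s • T) (fun n => JG.law t (p n) (F n)) h

end Vale.Agent.P145W
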