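import Vale.Agent.P145W.Props

/-!
The weight of a spin configuration.
-/

set_option autoImplicit false

namespace Vale.Agent.P145W

open Set Vale.Agent.P145

theorem count_pairs {W : Set (ℤ × ℤ)} {R : W → W → Prop} {a b : ℤ × ℤ} {A B : Finset (ℤ × ℤ)}
    (ha : a + a ≠ 0) (hb : b + b ≠ 0) (hab : a ≠ b) (hab' : a + b ≠ 0)
    (hA : ∀ e ∈ A, ∃ u v : W, u.1 = e ∧ v.1 = e + a ∧ R u v)
    (hB : ∀ e ∈ B, ∃ u v : W, u.1 = e ∧ v.1 = e + b ∧ R u v)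
    (hR : ∀ u v, R u v → (u.1 ∈ A ∧ v.1 = u.1 + a) ∨ (v.1 ∈ A ∧ u.1 = v.1 + a) ∨
      (u.1 ∈ B ∧ v.1 = u.1 + b) ∨ (v.1 ∈ B ∧ u.1 = v.1 + b)) :
    {e : Sym2 W | ∃ u v, e = s(u, v) ∧ R u v}.ncard = A.card + B.card := by
  classical
  have inj : ∀ c : ℤ × ℤ, c + c ≠ 0 → Function.Injective fun e : ℤ × ℤ => s(e, e + c) := by
    intro c hc x y h
    rcases Sym2.eq_iff.1 h with ⟨h1, -⟩ | ⟨h1, h2⟩
    · exact h1
    · exfalso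
      apply hc
      have : y + (c + c) = y + 0 := by rw [← add_assoc, ← h1, h2, add_zero]
      exact add_left_cancel this
  have h1 : Sym2.map Subtype.val '' {e : Sym2 W | ∃ u v, e = s(u, v) ∧ R u v} =
      ↑(A.image (fun e => s(e, e + a)) ∪ B.image fun e => s(e, e + b)) := by
    ext x
    simp only [mem_image, mem_ofPred_eq, Finset.coe_union, Finset.coe_image, mem_union,
      Finset.mem_coe]
    constructor
    · rintro ⟨_, ⟨u, v, rfl, h⟩, rfl⟩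
      rw [Sym2.map_mk]
      rcases hR u v h with ⟨h1, h2⟩ | ⟨h1, h2⟩ | ⟨h1, h2⟩ | ⟨h1, h2⟩
      · exact Or.inl ⟨_, h1, by rw [← h2]⟩
      · exact Or.inl ⟨_, h1, by rw [← h2, Sym2.eq_swap]⟩
      · exact Or.inr ⟨_, h1, by rw [← h2]⟩
      · exact Or.inr ⟨_, h1, by rw [← h2, Sym2.eq_swap]⟩
    · rintro (⟨e, he, rfl⟩ | ⟨e, he, rfl⟩)
      · obtain ⟨u, v, h1, h2, h3⟩ := hA e he
        exact ⟨s(u, v), ⟨u, v, rfl, h3⟩, by rw [Sym2.map_mk, h1, h2]⟩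
      · obtain ⟨u, v, h1, h2, h3⟩ := hB e he
        exact ⟨s(u, v), ⟨u, v, rfl, h3⟩, by rw [Sym2.map_mk, h1, h2]⟩
  rw [← ncard_image_of_injective _ (Sym2.map.injective Subtype.val_injective), h1,
    ncard_coe_finset, Finset.card_union_of_disjoint, Finset.card_image_of_injective _ (inj a ha),
    Finset.card_image_of_injective _ (inj b hb)]
  rw [Finset.disjoint_left]
  intro x hx hy
  obtain ⟨e, -, rfl⟩ := Finset.mem_image.1 hx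
  obtain ⟨e', -, h⟩ := Finset.mem_image.1 hy
  rcases Sym2.eq_iff.1 h with ⟨h1, h2⟩ | ⟨h1, h2⟩
  · rw [h1] at h2
    exact hab (add_left_cancel h2).symm
  · apply hab'
    have : e + (a + b) = e + 0 := by rw [← add_assoc, ← h1, h2, add_zero]
    exact add_left_cancel this

theorem dist_pt {u v : ℤ × ℤ} : dist (pt u) (pt v) = 1 ↔
    (u.1 - v.1) ^ 2 + (u.2 - v.2) ^ 2 = 1 := by
  rw [Complex.dist_eq_re_im, Real.sqrt_eq_one]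
  simp only [pt]
  exact_mod_cast Iff.rfl

theorem dist_pt' {u v : ℤ × ℤ} : dist (pt u) (pt v) = 1 ↔
    (v.1 = u.1 + 1 ∧ v.2 = u.2) ∨ (u.1 = v.1 + 1 ∧ v.2 = u.2) ∨
      (v.1 = u.1 ∧ v.2 = u.2 + 1) ∨ (v.1 = u.1 ∧ u.2 = v.2 + 1) := by
  rw [dist_pt]
  constructor
  · intro h
    have h1 : u.1 - v.1 ≤ 1 := by nlinarith [sq_nonneg (u.2 - v.2)]
    have h2 : -1 ≤ u.1 - v.1 := by nlinarith [sq_nonneg (u.2 - v.2)]
    have h3 : u.2 - v.2 ≤ 1 := by nlinarith [sq_nonneg (u.1 - v.1)]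
    have h4 : -1 ≤ u.2 - v.2 := by nlinarith [sq_nonneg (u.1 - v.1)]
    generalize hx : u.1 - v.1 = x at *
    generalize hy : u.2 - v.2 = y at *
    interval_cases x <;> interval_cases y <;> simp at h <;> omega
  · rintro (⟨h1, h2⟩ | ⟨h1, h2⟩ | ⟨h1, h2⟩ | ⟨h1, h2⟩) <;> rw [h1, h2] <;> ring

open Classical in
/-- The spin as a Boolean. -/
noncomputable def bl (a : ({1, -1} : Set ℝ)) : Bool := decide ((a : ℝ) = 1)

theorem bl_true {a : ({1, -1} : Set ℝ)} : bl a = true ↔ (a : ℝ) = 1 := by simp [bl]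

theorem sp_bl (a : ({1, -1} : Set ℝ)) : JG.sp (bl a) = a := by
  rcases a.2 with h | h
  · rw [bl_true.2 h, h]; simp [JG.sp]
  · have h1 : (a : ℝ) = -1 := h
    have h2 : ¬ bl a = true := by rw [bl_true, h1]; norm_num
    rw [JG.sp, if_neg h2, h1]

theorem bl_inj {a b : ({1, -1} : Set ℝ)} : bl a = bl b ↔ a = b :=
  ⟨fun h => Subtype.ext (by rw [← sp_bl, ← sp_bl, h]), fun h => by rw [h]⟩

open Classical in
/-- The configuration on the whole lattice. -/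
noncomputable def toJ (P : Polygon) (σ : P.Conf) : JG.Conf :=
  Sum.elim (fun v => if h : v ∈ P.V then bl (σ.1 ⟨v, h⟩) else true)
    fun f => if h : f ∈ P.F then bl (σ.2 ⟨f, h⟩) else true

variable {P : Polygon} {S : Finset (ℤ × ℤ)}

theorem toJ_inl (σ : P.Conf) (v : P.V) : toJ P σ (Sum.inl v.1) = bl (σ.1 v) := by
  simp only [toJ, Sum.elim_inl, dif_pos v.2]

theorem toJ_inr (σ : P.Conf) (f : P.F) : toJ P σ (Sum.inr f.1) = bl (σ.2 f) := by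
  simp only [toJ, Sum.elim_inr, dif_pos f.2]

theorem Graph.mem_F (h : Graph P S) {f : ℤ × ℤ} : f ∈ P.F ↔ f ∈ S := by
  rw [← h.faces, Finset.mem_coe]

theorem Graph.mem_V (h : Graph P S) {v : ℤ × ℤ} : v ∈ P.V ↔
    ∃ f ∈ S, (v.1 = f.1 ∨ v.1 = f.1 + 1) ∧ (v.2 = f.2 ∨ v.2 = f.2 + 1) := by
  rw [← h.verts, Finset.mem_coe, JG.verts]
  simp only [Finset.mem_union, Finset.mem_image]
  constructor
  · rintro (((h | ⟨f, hf, rfl⟩) | ⟨f, hf, rfl⟩) | ⟨f, hf, rfl⟩)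
    · exact ⟨v, h, by simp⟩
    · exact ⟨f, hf, by simp⟩
    · exact ⟨f, hf, by simp⟩
    · exact ⟨f, hf, by simp⟩
  · rintro ⟨f, hf, h1 | h1, h2 | h2⟩
    · left; left; left
      rwa [show v = f from Prod.ext h1 h2]
    · left; right; exact ⟨f, hf, Prod.ext (by simpa using h1.symm) h2.symm⟩
    · left; left; right; exact ⟨f, hf, Prod.ext h1.symm (by simpa using h2.symm)⟩
    · right; exact ⟨f, hf, Prod.ext h1.symm h2.symm⟩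

/-- The horizontal interior edges. -/
theorem Graph.sep_h (h : Graph P S) {e : ℤ × ℤ} (h1 : e ∈ S) (h2 : e - (0, 1) ∈ S) :
    ∃ (u v : P.V) (f f' : P.F), u.1 = e ∧ v.1 = e + (1, 0) ∧ f.1 = e ∧ f'.1 = e - (0, 1) ∧
      P.Sep u v f f' := by
  refine ⟨⟨e, h.mem_V.2 ⟨e, h1, by simp⟩⟩, ⟨e + (1, 0), h.mem_V.2 ⟨e, h1, by simp⟩⟩,
    ⟨e, h.mem_F.2 h1⟩, ⟨e - (0, 1), h.mem_F.2 h2⟩, rfl, rfl, rfl, rfl,
    (h.edge _ _).2 ⟨dist_pt'.2 (by simp), ⟨e, h.mem_F.2 h1⟩, ?_, ?_⟩, ?_, ?_, ?_, ?_, ?_⟩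
  all_goals simp [Polygon.Corner, Prod.ext_iff]
  omega

/-- The vertical interior edges. -/
theorem Graph.sep_v (h : Graph P S) {e : ℤ × ℤ} (h1 : e ∈ S) (h2 : e - (1, 0) ∈ S) :
    ∃ (u v : P.V) (f f' : P.F), u.1 = e ∧ v.1 = e + (0, 1) ∧ f.1 = e ∧ f'.1 = e - (1, 0) ∧
      P.Sep u v f f' := by
  refine ⟨⟨e, h.mem_V.2 ⟨e, h1, by simp⟩⟩, ⟨e + (0, 1), h.mem_V.2 ⟨e, h1, by simp⟩⟩,
    ⟨e, h.mem_F.2 h1⟩, ⟨e - (1, 0), h.mem_F.2 h2⟩, rfl, rfl, rfl, rfl,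
    (h.edge _ _).2 ⟨dist_pt'.2 (by simp), ⟨e, h.mem_F.2 h1⟩, ?_, ?_⟩, ?_, ?_, ?_, ?_, ?_⟩
  all_goals simp [Polygon.Corner, Prod.ext_iff]
  omega

/-- All interior edges are of this form. -/
theorem sep_cases {u v : P.V} {f f' : P.F} (h : P.Sep u v f f') : ∃ e : ℤ × ℤ,
    (((u.1 = e ∧ v.1 = e + (1, 0)) ∨ (v.1 = e ∧ u.1 = e + (1, 0))) ∧
      ((f.1 = e ∧ f'.1 = e - (0, 1)) ∨ (f'.1 = e ∧ f.1 = e - (0, 1)))) ∨
    (((u.1 = e ∧ v.1 = e + (0, 1)) ∨ (v.1 = e ∧ u.1 = e + (0, 1))) ∧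
      ((f.1 = e ∧ f'.1 = e - (1, 0)) ∨ (f'.1 = e ∧ f.1 = e - (1, 0)))) := by
  obtain ⟨⟨h1, -⟩, h2, h3, h4, h5, h6⟩ := h
  have h7 : ¬ (f.1.1 = f'.1.1 ∧ f.1.2 = f'.1.2) := fun h => h2 (Subtype.ext (Prod.ext h.1 h.2))
  rw [dist_pt'] at h1
  unfold Polygon.Corner at h3 h4 h5 h6
  have e1 : ∀ a b : ℤ × ℤ, a = b + (1, 0) ↔ a.1 = b.1 + 1 ∧ a.2 = b.2 := by simp [Prod.ext_iff]
  have e2 : ∀ a b : ℤ × ℤ, a = b + (0, 1) ↔ a.1 = b.1 ∧ a.2 = b.2 + 1 := by simp [Prod.ext_iff]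
  have e3 : ∀ a b : ℤ × ℤ, a = b - (1, 0) ↔ a.1 = b.1 - 1 ∧ a.2 = b.2 := by simp [Prod.ext_iff]
  have e4 : ∀ a b : ℤ × ℤ, a = b - (0, 1) ↔ a.1 = b.1 ∧ a.2 = b.2 - 1 := by simp [Prod.ext_iff]
  rcases h1 with h1 | h1 | h1 | h1
  · refine ⟨u.1, Or.inl ⟨Or.inl ⟨rfl, (e1 _ _).2 h1⟩, ?_⟩⟩
    simp only [e4, Prod.ext_iff]
    omega
  · refine ⟨v.1, Or.inl ⟨Or.inr ⟨rfl, (e1 _ _).2 ⟨h1.1, h1.2.symm⟩⟩, ?_⟩⟩
    simp only [e4, Prod.ext_iff]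
    omega
  · refine ⟨u.1, Or.inr ⟨Or.inl ⟨rfl, (e2 _ _).2 h1⟩, ?_⟩⟩
    simp only [e3, Prod.ext_iff]
    omega
  · refine ⟨v.1, Or.inr ⟨Or.inr ⟨rfl, (e2 _ _).2 ⟨h1.1.symm, h1.2⟩⟩, ?_⟩⟩
    simp only [e3, Prod.ext_iff]
    omega

/-- An edge with different spins at its ends is interior. -/
theorem Graph.inner (h : Graph P S) {σ : P.Conf}
    (hσ : ∀ v : P.V, P.δ * pt v ∈ P.curve → (σ.1 v : ℝ) = 1) {u v : P.V} (he : P.Edge u v)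
    (hne : σ.1 u ≠ σ.1 v) : ∃ f f', P.Sep u v f f' := by
  have hn : ¬ JG.IsEdge P.p u.1 v.1 ∧ ¬ JG.IsEdge P.p v.1 u.1 := by
    constructor <;> rintro ⟨i, ⟨h1, h2⟩ | ⟨h1, h2⟩⟩ <;>
      exact hne (Subtype.ext ((hσ u ((h.onP _).2 ⟨_, ‹_›⟩)).trans
        (hσ v ((h.onP _).2 ⟨_, ‹_›⟩)).symm))
  obtain ⟨h1, f, h2, h3⟩ := (h.edge u v).1 he
  have hf := h.mem_F.1 f.2
  have key : ∀ g g' : ℤ × ℤ, (g ∈ S ↔ g' ∈ S) → (f.1 = g ∨ f.1 = g') → g ≠ g' →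
      ((u.1.1 = g.1 ∨ u.1.1 = g.1 + 1) ∧ (u.1.2 = g.2 ∨ u.1.2 = g.2 + 1)) →
      ((v.1.1 = g.1 ∨ v.1.1 = g.1 + 1) ∧ (v.1.2 = g.2 ∨ v.1.2 = g.2 + 1)) →
      ((u.1.1 = g'.1 ∨ u.1.1 = g'.1 + 1) ∧ (u.1.2 = g'.2 ∨ u.1.2 = g'.2 + 1)) →
      ((v.1.1 = g'.1 ∨ v.1.1 = g'.1 + 1) ∧ (v.1.2 = g'.2 ∨ v.1.2 = g'.2 + 1)) →
      ∃ f f', P.Sep u v f f' := by
    intro g g' a b c d1 d2 d3 d4
    have hg : g ∈ S := by
      rcases b with b | b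
      · rwa [← b]
      · rwa [a, ← b]
    exact ⟨⟨g, h.mem_F.2 hg⟩, ⟨g', h.mem_F.2 (a.1 hg)⟩, he,
      fun x => c (congrArg Subtype.val x), d1, d2, d3, d4⟩
  unfold Polygon.Corner at h2 h3
  rcases dist_pt'.1 h1 with h4 | h4 | h4 | h4
  · have e : v.1 = u.1 + (1, 0) := by simp [Prod.ext_iff, h4]
    refine key u.1 (u.1 - (0, 1)) (not_not.1 fun x => hn.1 (e ▸ (h.encl.1 _).2 x)) ?_ ?_ ?_ ?_ ?_ ?_
    · simp only [Prod.ext_iff, Prod.fst_sub, Prod.snd_sub]; omega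
    · simp only [Prod.ext_iff, Prod.fst_sub, Prod.snd_sub, ne_eq]; omega
    · omega
    · omega
    · simp only [Prod.fst_sub, Prod.snd_sub]; omega
    · simp only [Prod.fst_sub, Prod.snd_sub]; omega
  · have e : u.1 = v.1 + (1, 0) := by simp [Prod.ext_iff, h4]
    refine key v.1 (v.1 - (0, 1)) (not_not.1 fun x => hn.2 (e ▸ (h.encl.1 _).2 x)) ?_ ?_ ?_ ?_ ?_ ?_
    · simp only [Prod.ext_iff, Prod.fst_sub, Prod.snd_sub]; omega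
    · simp only [Prod.ext_iff, Prod.fst_sub, Prod.snd_sub, ne_eq]; omega
    · omega
    · omega
    · simp only [Prod.fst_sub, Prod.snd_sub]; omega
    · simp only [Prod.fst_sub, Prod.snd_sub]; omega
  · have e : v.1 = u.1 + (0, 1) := by simp [Prod.ext_iff, h4]
    refine key u.1 (u.1 - (1, 0)) (not_not.1 fun x => hn.1 (e ▸ (h.encl.2 _).2 x)) ?_ ?_ ?_ ?_ ?_ ?_
    · simp only [Prod.ext_iff, Prod.fst_sub, Prod.snd_sub]; omega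
    · simp only [Prod.ext_iff, Prod.fst_sub, Prod.snd_sub, ne_eq]; omega
    · omega
    · omega
    · simp only [Prod.fst_sub, Prod.snd_sub]; omega
    · simp only [Prod.fst_sub, Prod.snd_sub]; omega
  · have e : u.1 = v.1 + (0, 1) := by simp [Prod.ext_iff, h4]
    refine key v.1 (v.1 - (1, 0)) (not_not.1 fun x => hn.2 (e ▸ (h.encl.2 _).2 x)) ?_ ?_ ?_ ?_ ?_ ?_
    · simp only [Prod.ext_iff, Prod.fst_sub, Prod.snd_sub]; omega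
    · simp only [Prod.ext_iff, Prod.fst_sub, Prod.snd_sub, ne_eq]; omega
    · omega
    · omega
    · simp only [Prod.fst_sub, Prod.snd_sub]; omega
    · simp only [Prod.fst_sub, Prod.snd_sub]; omega

open Classical in
theorem Graph.dis_eq (h : Graph P S) {σ : P.Conf}
    (hσ : ∀ v : P.V, P.δ * pt v ∈ P.curve → (σ.1 v : ℝ) = 1) : P.dis σ =
    (((S.filter fun e => e - (0, 1) ∈ S).filter fun e =>
        toJ P σ (Sum.inl e) ≠ toJ P σ (Sum.inl (e + (1, 0)))).card +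
      ((S.filter fun e => e - (1, 0) ∈ S).filter fun e =>
        toJ P σ (Sum.inl e) ≠ toJ P σ (Sum.inl (e + (0, 1)))).card) +
    (((S.filter fun e => e - (0, 1) ∈ S).filter fun e =>
        toJ P σ (Sum.inr e) ≠ toJ P σ (Sum.inr (e - (0, 1)))).card +
      ((S.filter fun e => e - (1, 0) ∈ S).filter fun e =>
        toJ P σ (Sum.inr e) ≠ toJ P σ (Sum.inr (e - (1, 0)))).card) := by
  unfold Polygon.dis
  congr 1
  · refine count_pairs (a := (1, 0)) (b := (0, 1)) (by decide) (by decide) (by decide) (by decide)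
      ?_ ?_ ?_
    · intro e he
      simp only [Finset.mem_filter] at he
      obtain ⟨u, v, f, f', rfl, h2, -, -, h5⟩ := h.sep_h he.1.1 he.1.2
      refine ⟨u, v, rfl, h2, h5.1, fun x => he.2 ?_⟩
      rw [← h2, toJ_inl, toJ_inl, x]
    · intro e he
      simp only [Finset.mem_filter] at he
      obtain ⟨u, v, f, f', rfl, h2, -, -, h5⟩ := h.sep_v he.1.1 he.1.2
      refine ⟨u, v, rfl, h2, h5.1, fun x => he.2 ?_⟩
      rw [← h2, toJ_inl, toJ_inl, x]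
    · rintro u v ⟨h1, h2⟩
      obtain ⟨f, f', h3⟩ := h.inner hσ h1 h2
      have hf := h.mem_F.1 f.2
      have hf' := h.mem_F.1 f'.2
      have h4 : toJ P σ (Sum.inl u.1) ≠ toJ P σ (Sum.inl v.1) := by
        rwa [toJ_inl, toJ_inl, ne_eq, bl_inj]
      simp only [Finset.mem_filter]
      obtain ⟨e, ⟨⟨rfl, a⟩ | ⟨rfl, a⟩, b⟩ | ⟨⟨rfl, a⟩ | ⟨rfl, a⟩, b⟩⟩ := sep_cases h3
      · refine Or.inl ⟨⟨?_, a ▸ h4⟩, a⟩
        rcases b with ⟨b, c⟩ | ⟨b, c⟩ <;> exact ⟨b ▸ ‹_›, c ▸ ‹_›⟩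
      · refine Or.inr (Or.inl ⟨⟨?_, a ▸ h4.symm⟩, a⟩)
        rcases b with ⟨b, c⟩ | ⟨b, c⟩ <;> exact ⟨b ▸ ‹_›, c ▸ ‹_›⟩
      · refine Or.inr (Or.inr (Or.inl ⟨⟨?_, a ▸ h4⟩, a⟩))
        rcases b with ⟨b, c⟩ | ⟨b, c⟩ <;> exact ⟨b ▸ ‹_›, c ▸ ‹_›⟩
      · refine Or.inr (Or.inr (Or.inr ⟨⟨?_, a ▸ h4.symm⟩, a⟩))
        rcases b with ⟨b, c⟩ | ⟨b, c⟩ <;> exact ⟨b ▸ ‹_›, c ▸ ‹_›⟩
  · refine count_pairs (a := -(0, 1)) (b := -(1, 0)) (by decide) (by decide) (by decide)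
      (by decide) ?_ ?_ ?_
    · intro e he
      simp only [Finset.mem_filter] at he
      obtain ⟨u, v, f, f', -, -, rfl, h2, h5⟩ := h.sep_h he.1.1 he.1.2
      refine ⟨f, f', rfl, h2, ⟨u, v, h5⟩, fun x => he.2 ?_⟩
      rw [← h2, toJ_inr, toJ_inr, x]
    · intro e he
      simp only [Finset.mem_filter] at he
      obtain ⟨u, v, f, f', -, -, rfl, h2, h5⟩ := h.sep_v he.1.1 he.1.2
      refine ⟨f, f', rfl, h2, ⟨u, v, h5⟩, fun x => he.2 ?_⟩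
      rw [← h2, toJ_inr, toJ_inr, x]
    · rintro f f' ⟨⟨u, v, h3⟩, h2⟩
      have hf := h.mem_F.1 f.2
      have hf' := h.mem_F.1 f'.2
      have h4 : toJ P σ (Sum.inr f.1) ≠ toJ P σ (Sum.inr f'.1) := by
        rwa [toJ_inr, toJ_inr, ne_eq, bl_inj]
      simp only [Finset.mem_filter, ← sub_eq_add_neg]
      obtain ⟨e, ⟨-, ⟨rfl, a⟩ | ⟨rfl, a⟩⟩ | ⟨-, ⟨rfl, a⟩ | ⟨rfl, a⟩⟩⟩ := sep_cases h3
      · exact Or.inl ⟨⟨⟨hf, a ▸ hf'⟩, a ▸ h4⟩, a⟩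
      · exact Or.inr (Or.inl ⟨⟨⟨hf', a ▸ hf⟩, a ▸ h4.symm⟩, a⟩)
      · exact Or.inr (Or.inr (Or.inl ⟨⟨⟨hf, a ▸ hf'⟩, a ▸ h4⟩, a⟩))
      · exact Or.inr (Or.inr (Or.inr ⟨⟨⟨hf', a ▸ hf⟩, a ▸ h4.symm⟩, a⟩))

theorem mul_zero_iff {a b c d : ({1, -1} : Set ℝ)} :
    ((a : ℝ) - b) * ((c : ℝ) - d) = 0 ↔ a = b ∨ c = d := by
  rw [mul_eq_zero, sub_eq_zero, sub_eq_zero, Subtype.ext_iff, Subtype.ext_iff]

/-- The constraint, edge by edge. -/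
theorem Graph.cons_iff (h : Graph P S) {σ : P.Conf} :
    (∀ u v f f', P.Sep u v f f' → ((σ.1 u : ℝ) - σ.1 v) * ((σ.2 f : ℝ) - σ.2 f') = 0) ↔
    (∀ e ∈ S, e - (0, 1) ∈ S → toJ P σ (Sum.inl e) = toJ P σ (Sum.inl (e + (1, 0))) ∨
      toJ P σ (Sum.inr e) = toJ P σ (Sum.inr (e - (0, 1)))) ∧
    (∀ e ∈ S, e - (1, 0) ∈ S → toJ P σ (Sum.inl e) = toJ P σ (Sum.inl (e + (0, 1))) ∨
      toJ P σ (Sum.inr e) = toJ P σ (Sum.inr (e - (1, 0)))) := by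
  simp only [mul_zero_iff]
  constructor
  · intro H
    constructor
    · intro e h1 h2
      obtain ⟨u, v, f, f', a, b, c, d, h5⟩ := h.sep_h h1 h2
      have := H u v f f' h5
      rwa [← bl_inj, ← bl_inj, ← toJ_inl, ← toJ_inl, ← toJ_inr, ← toJ_inr, a, b, c, d] at this
    · intro e h1 h2
      obtain ⟨u, v, f, f', a, b, c, d, h5⟩ := h.sep_v h1 h2
      have := H u v f f' h5
      rwa [← bl_inj, ← bl_inj, ← toJ_inl, ← toJ_inl, ← toJ_inr, ← toJ_inr, a, b, c, d] at this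
  · rintro ⟨H1, H2⟩ u v f f' h3
    have hf := h.mem_F.1 f.2
    have hf' := h.mem_F.1 f'.2
    rw [← bl_inj, ← bl_inj, ← toJ_inl, ← toJ_inl, ← toJ_inr, ← toJ_inr]
    obtain ⟨e, ⟨a, b⟩ | ⟨a, b⟩⟩ := sep_cases h3
    · have := H1 e (by rcases b with ⟨b, c⟩ | ⟨b, c⟩ <;> exact b ▸ ‹_›)
        (by rcases b with ⟨b, c⟩ | ⟨b, c⟩ <;> exact c ▸ ‹_›)
      rcases a with ⟨a, a'⟩ | ⟨a, a'⟩ <;> rcases b with ⟨b, c⟩ | ⟨b, c⟩ <;> rw [a, a', b, c] <;>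
        exact this.imp (fun x => by rw [x]) fun x => by rw [x]
    · have := H2 e (by rcases b with ⟨b, c⟩ | ⟨b, c⟩ <;> exact b ▸ ‹_›)
        (by rcases b with ⟨b, c⟩ | ⟨b, c⟩ <;> exact c ▸ ‹_›)
      rcases a with ⟨a, a'⟩ | ⟨a, a'⟩ <;> rcases b with ⟨b, c⟩ | ⟨b, c⟩ <;> rw [a, a', b, c] <;>
        exact this.imp (fun x => by rw [x]) fun x => by rw [x]

theorem prod_ew (t : ℝ) (A : Finset (ℤ × ℤ)) (a b c d : ℤ × ℤ → Bool)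
    (H : ∀ e ∈ A, a e = b e ∨ c e = d e) : ∏ e ∈ A, JG.ew t (a e) (b e) (c e) (d e) =
      t ^ ((A.filter fun e => a e ≠ b e).card + (A.filter fun e => c e ≠ d e).card) := by
  rw [Finset.card_filter, Finset.card_filter, ← Finset.sum_add_distrib,
    ← Finset.prod_pow_eq_pow_sum]
  refine Finset.prod_congr rfl fun e he => ?_
  rw [JG.ew, if_pos (H e he)]
  simp only [ne_eq, ite_not]

theorem hw_eq (t : ℝ) (σ : JG.Conf) (e : ℤ × ℤ) : JG.hw t σ e = JG.ew t (σ (Sum.inl e))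
    (σ (Sum.inl (e + (1, 0)))) (σ (Sum.inr e)) (σ (Sum.inr (e - (0, 1)))) := by
  have e1 : e + (1, 0) = (e.1 + 1, e.2) := by simp [Prod.ext_iff]
  have e2 : e - (0, 1) = (e.1, e.2 - 1) := by simp [Prod.ext_iff]
  rw [e1, e2, JG.hw]

theorem vw_eq (t : ℝ) (σ : JG.Conf) (e : ℤ × ℤ) : JG.vw t σ e = JG.ew t (σ (Sum.inl e))
    (σ (Sum.inl (e + (0, 1)))) (σ (Sum.inr e)) (σ (Sum.inr (e - (1, 0)))) := by
  have e1 : e + (0, 1) = (e.1, e.2 + 1) := by simp [Prod.ext_iff]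
  have e2 : e - (1, 0) = (e.1 - 1, e.2) := by simp [Prod.ext_iff]
  rw [e1, e2, JG.vw]

/-- The weight of an admissible pair. -/
theorem Graph.wt_adm (h : Graph P S) (t : ℝ) {σ : P.Conf} (hσ : σ ∈ P.adm) :
    JG.wt t S (toJ P σ) = t ^ P.dis σ := by
  obtain ⟨H1, H2⟩ := h.cons_iff.1 hσ.2
  rw [h.dis_eq hσ.1, JG.wt]
  simp only [hw_eq, vw_eq]
  rw [prod_ew t _ _ _ _ _ fun e he => H1 e (Finset.mem_filter.1 he).1 (Finset.mem_filter.1 he).2,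
    prod_ew t _ _ _ _ _ fun e he => H2 e (Finset.mem_filter.1 he).1 (Finset.mem_filter.1 he).2,
    ← pow_add]
  congr 1
  rw [add_add_add_comm]

/-- Pairs of nonzero weight are admissible. -/
theorem Graph.adm_of (h : Graph P S) {t : ℝ} {σ : P.Conf}
    (hσ : ∀ v : P.V, P.δ * pt v ∈ P.curve → (σ.1 v : ℝ) = 1) (h0 : JG.wt t S (toJ P σ) ≠ 0) :
    σ ∈ P.adm := by
  refine ⟨hσ, h.cons_iff.2 ⟨fun e h1 h2 => ?_, fun e h1 h2 => ?_⟩⟩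
  · have h3 := Finset.prod_ne_zero_iff.1 (mul_ne_zero_iff.1 h0).1 e (Finset.mem_filter.2 ⟨h1, h2⟩)
    rw [hw_eq] at h3
    by_contra h4
    exact h3 (if_neg h4)
  · have h3 := Finset.prod_ne_zero_iff.1 (mul_ne_zero_iff.1 h0).2 e (Finset.mem_filter.2 ⟨h1, h2⟩)
    rw [vw_eq] at h3
    by_contra h4
    exact h3 (if_neg h4)

end Vale.Agent.P145W
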